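import Vale.Agent.P219.Relax.Six.Cand.Sol
import Vale.Agent.P219.Relax.Six.CandB.Atom
import Vale.Agent.P219.Relax.Six.Strict

/-!
# P219, dimension six: the certificates from the signs on the parameter square

Every curvature bound is some `σ`, and every contact some parameter `v`. So the linear conditions at
each parameter give the certificate, and with the margins the strict one.
-/

noncomputable section

open Set Real

namespace Vale.Agent.P219.CH.Relax.Six

namespace Cand

/-- Every contact is a parameter. -/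
lemma exists_ptB {σ t : ℝ} (h : σ ∈ Ioo (0 : ℝ) 1) (ht : t ∈ Ioc (0 : ℝ) 1) :
    ∃ v, CandB.Param σ v ∧ t = RootGen.tp σ v ∧
      ptIn (1 - σ ^ 2) (Tan.wtOf (1 - σ ^ 2) (gq σ)) t = CandB.ptB σ v := by
  obtain ⟨v, hv, htv, -⟩ := RootGen.exists_param h rfl ht
  exact ⟨v, ⟨h, hv⟩, htv, by rw [htv]; rfl⟩

/-- A curvature bound in the parameter. -/
lemma exists_sigma {e : ℝ} (he : e ∈ Ioo (0 : ℝ) 1) : ∃ σ ∈ Ioo (0 : ℝ) 1, e = 1 - σ ^ 2 := by
  have h : 0 < 1 - e := sub_pos.2 he.2
  refine ⟨√(1 - e), ⟨sqrt_pos.2 h, ?_⟩, by rw [sq_sqrt h.le]; ring⟩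
  rw [sqrt_lt' one_pos]
  linarith [he.1]

/-- The candidate is a solution if the linear conditions hold at every parameter. -/
theorem solFacts_of_coef {σ : ℝ} (h : σ ∈ Ioo (0 : ℝ) 1)
    (hc : ∀ v, CandB.Param σ v →
      InCoef (concQ (1 - σ ^ 2)) (CandB.ptB σ v) (RootGen.tp σ v)) :
    SolFacts (1 - σ ^ 2) (Tan.rate (gq σ)) (Tan.wtOf (1 - σ ^ 2) (gq σ)) := by
  refine solFacts_of h fun t ht => ?_
  have he := e_mem h
  obtain ⟨v, hp, htv, hpt⟩ := exists_ptB h ht
  have h1 := hc v hp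
  rw [← hpt, ← htv] at h1
  refine h1.inPt ⟨?_, ?_⟩ ht (div_nonneg (Five.yf_pos he (Ioc_subset_Icc_self ht)).le ?_)
  · exact div_nonneg (by linarith [he.1]) (by linarith [he.1])
  · rw [concQ, div_lt_one (by linarith [he.1])]
    linarith [he.2]
  · linarith [ht.1]

/-- The linear conditions at every parameter give the certificate in dimension six. -/
theorem cert_six_of_coef
    (hc : ∀ σ v, CandB.Param σ v →
      InCoef (concQ (1 - σ ^ 2)) (CandB.ptB σ v) (RootGen.tp σ v)) : Cert 6 := by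
  refine cert_six_of_sol fun e he => ?_
  obtain ⟨σ, h, rfl⟩ := exists_sigma he
  exact ⟨_, _, solFacts_of_coef h (hc σ)⟩

/-- With the margins they give the strict certificate. -/
theorem strictCert_six_of_coef
    (hc : ∀ σ v, CandB.Param σ v →
      InCoef (concQ (1 - σ ^ 2)) (CandB.ptB σ v) (RootGen.tp σ v))
    (hm : ∀ σ v, CandB.Param σ v → Strictly.InMargin (CandB.ptB σ v) (RootGen.tp σ v)) :
    Rigid.StrictCert 6 := by
  refine Strictly.strictCert_six_of_sol fun e he => ?_
  obtain ⟨σ, h, rfl⟩ := exists_sigma he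
  refine ⟨_, _, solFacts_of_coef h (hc σ), fun t ht => ?_⟩
  obtain ⟨v, hp, htv, hpt⟩ := exists_ptB h ht
  rw [hpt, htv]
  exact hm σ v hp

end Cand

end Vale.Agent.P219.CH.Relax.Six
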