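import Vale.Agent.P219.Relax.Six.Cand.Def

/-!
# P219, dimension six: the candidate at the diameter

The slope at the diameter and its derivative have the pinned values, the volume constant is
nonnegative, and the continuation lies in its box.
-/

noncomputable section

open Set Real

namespace Vale.Agent.P219.CH.Relax.Six

namespace Cand

open Vale.Agent.P219.Poly (E)
open CandB (dL c1L c2L bL)

/-- The tree on the side `ω = σ`. -/
def endE : E → E
  | .k z => .k z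
  | .x i => if i = 0 then .x i else .k 0
  | .bar i => if i = 0 then .bar i else .k 1
  | .neg p => .neg (endE p)
  | .add p q => .add (endE p) (endE q)
  | .mul p q => .mul (endE p) (endE q)
  | .pow p n => .pow (endE p) n

lemma sem_endE (σ : ℝ) : ∀ p : E, E.sem ![σ, 0, 0] (endE p) = E.sem ![σ, 0, 0] p
  | .k _ => rfl
  | .x i => by fin_cases i <;> simp [endE, E.sem]
  | .bar i => by fin_cases i <;> simp [endE, E.sem]
  | .neg p => by simp [endE, E.sem, sem_endE σ p]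
  | .add p q => by simp [endE, E.sem, sem_endE σ p, sem_endE σ q]
  | .mul p q => by simp [endE, E.sem, sem_endE σ p, sem_endE σ q]
  | .pow p n => by simp [endE, E.sem, sem_endE σ p]

/-- The diagonal at the diameter, against the lower end of its box. -/
def xlLoT : E := 112 * sT ^ 5 * mT * eT - 25 * sT ^ 2 * w0T

/-- The diagonal at the diameter, against the upper end of its box. -/
def xlHiT : E := 25 * sT ^ 2 * w0T - 68 * sT ^ 5 * mT * eT

/-- The constant of the continuation, against the upper end of its box. -/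
def kT : E := (2 - sT ^ 2) * mT - sT ^ 6 * bT

variable {σ : ℝ}

lemma at_end (h : σ ∈ Ioo (0 : ℝ) 1) : At σ σ 1 ![σ, 0, 0] := by
  refine ⟨h.1, h.2, h.1, h.2, rfl, by simp [oT, sT, E.sem], ?_,
    (dl_pos (Ioo_subset_Ico_self h)).ne'⟩
  rw [div_self (sub_pos.2 (pow_lt_one₀ h.1.le h.2 two_ne_zero)).ne']

lemma e_mem (h : σ ∈ Ioo (0 : ℝ) 1) : 1 - σ ^ 2 ∈ Ioo (0 : ℝ) 1 :=
  ⟨sub_pos.2 (pow_lt_one₀ h.1.le h.2 two_ne_zero), sub_lt_self 1 (pow_pos h.1 2)⟩

lemma v_end (h : σ ∈ Ioo (0 : ℝ) 1) : ∀ i, (![σ, 0, 0] : Fin 3 → ℝ) i ∈ Icc (0 : ℝ) 1 := by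
  intro i
  fin_cases i <;> simp [h.1.le, h.2.le]

lemma mT_end_pos (h : σ ∈ Ioo (0 : ℝ) 1) : 0 < E.sem ![σ, 0, 0] mT := by
  have := mul_pos (pow_pos h.1 5) (dl_pos (Ioo_subset_Ico_self h))
  simp [mT, sT, sem_hor, E.sem]
  linarith

/-- The volume constant is nonnegative. -/
theorem rate_nonneg (h : σ ∈ Ioo (0 : ℝ) 1) : 0 ≤ Tan.rate (gq σ) := by
  rw [(at_end h).rate_eq]
  exact div_nonneg (E.sem_nonneg (by decide +kernel) (v_end h)) (mT_end_pos h).le

lemma Q_zero (h : σ ∈ Ioo (0 : ℝ) 1) :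
    (gq σ).Q 0 = -(4 / 3) * (E.sem ![σ, 0, 0] bT / E.sem ![σ, 0, 0] mT) := by
  rw [← (at_end h).rate_eq, Tan.rate]
  ring

/-- The slope at the diameter. -/
theorem slope_end (h : σ ∈ Ioo (0 : ℝ) 1) : (Tan.wtOf (1 - σ ^ 2) (gq σ)).P 1 =
    -(13 * (1 - σ ^ 2)) / (100 * (1 - (1 - σ ^ 2)) ^ 2) := by
  have := h.1.ne'
  have := (dl_pos (Ioo_subset_Ico_self h)).ne'
  rw [Tan.slope_end (e_mem h), Q_zero h, (at_end h).Q_eq, (at_end h).Q1_eq, sub_sub_cancel]
  simp [aT0, aT1, bT, mT, cm5, cm4, cm3, cm2, cm1, cp1, cp3, sem_hor, (at_end h).ho,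
    (at_end h).sem_s]
  field_simp
  simp only [rv, dL, c1L, c2L, bL]
  push_cast
  ring

/-- The derivative of the slope at the diameter. -/
theorem slope_end' (h : σ ∈ Ioo (0 : ℝ) 1) : (Tan.wtOf (1 - σ ^ 2) (gq σ)).P1 1 =
    (1 - σ ^ 2) * (14 - 26 * (1 - σ ^ 2)) / (100 * (1 - (1 - σ ^ 2)) ^ 3) := by
  have := h.1.ne'
  have := (dl_pos (Ioo_subset_Ico_self h)).ne'
  rw [Tan.slope_end' (e_mem h), Q_zero h, (at_end h).Q_eq, (at_end h).Q1_eq, (at_end h).Q2_eq,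
    sub_sub_cancel]
  simp [aT0, aT1, aT2, bT, mT, cm5, cm4, cm3, cm2, cm1, cp1, cp3, sem_hor, (at_end h).ho,
    (at_end h).sem_s]
  field_simp
  simp only [rv, dL, c1L, c2L, bL]
  push_cast
  ring

/-- The continuation lies in its box. -/
theorem outHyp (h : σ ∈ Ioo (0 : ℝ) 1) :
    OutHyp (1 - σ ^ 2) (xlOf (1 - σ ^ 2) (Tan.wtOf (1 - σ ^ 2) (gq σ)).V)
      (kOf (1 - σ ^ 2) (Tan.rate (gq σ))) := by
  have ha := at_end h
  have hm := mT_end_pos h
  have hσ := h.1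
  have he := (e_mem h).1
  have hd : 0 < 2 - σ ^ 2 := by linarith
  have lo := (E.sem_nonneg (p := endE xlLoT) (by decide +kernel) (v_end h)).trans_eq (sem_endE σ _)
  have hi := (E.sem_nonneg (p := endE xlHiT) (by decide +kernel) (v_end h)).trans_eq (sem_endE σ _)
  have hk := E.sem_nonneg (p := kT) (by decide +kernel) (v_end h)
  simp only [xlLoT, xlHiT, kT, sem_sub, sem_mul, sem_pow, sem_lit, ha.sem_s, ha.sem_e,
    Nat.cast_ofNat] at lo hi hk
  have hden : 0 < 100 * σ ^ 5 * E.sem ![σ, 0, 0] mT * (1 - σ ^ 2) := by positivity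
  have hX : xlOf (1 - σ ^ 2) (Tan.wtOf (1 - σ ^ 2) (gq σ)).V = 1 - 25 * σ ^ 2 *
      E.sem ![σ, 0, 0] w0T / (100 * σ ^ 5 * E.sem ![σ, 0, 0] mT * (1 - σ ^ 2)) := by
    simp only [xlOf, Tan.wtOf, one_pow, div_one, ha.w0_eq]
    field_simp
    ring
  refine ⟨⟨?_, ?_⟩, ?_, ?_⟩
  · rw [hX, neg_le, neg_sub, sub_le_iff_le_add, div_le_iff₀ hden]
    linarith
  · rw [hX, sub_le_comm, le_div_iff₀ hden]
    linarith
  · rw [kOf, ha.rate_eq]
    have := E.sem_nonneg (p := bT) (by decide +kernel) (v_end h)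
    rw [sub_sub_cancel, show 1 + (1 - σ ^ 2) = 2 - σ ^ 2 by ring]
    positivity
  · rw [kOf, ha.rate_eq, sub_sub_cancel, show 1 + (1 - σ ^ 2) = 2 - σ ^ 2 by ring,
      div_le_iff₀ hd, div_mul_eq_mul_div, div_le_iff₀ hm]
    have := mul_nonneg (pow_nonneg hσ.le 4) hk
    linarith

end Cand

end Vale.Agent.P219.CH.Relax.Six
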