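import Vale.Agent.P219.Relax.Six.Cand.Def

/-!
# P219, dimension six: the candidate, concavity

The inequality behind the concavity of the marginal coefficient is one polynomial in `σ` and the
share `u` of `ω` between `σ` and one, with all Bernstein coefficients nonnegative.
-/

noncomputable section

open Set Real

namespace Vale.Agent.P219.CH.Relax.Six

namespace Cand

open Vale.Agent.P219.Poly (E)

/-- The reduced marginal coefficient, scaled. -/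
def pmT : E := 20 * mT * fT ^ 2 * oT ^ 5 + 2 * gT * w1T + leT * w0T

/-- Its derivative, scaled. -/
def pm1T : E :=
  20 * mT * fT ^ 2 * oT ^ 7 + 2 * lwT * fT * w1T + 2 * gT * (oT ^ 2 * w1T + w2T) + leT * w1T
    + (5 * eT - 8) * fT * oT ^ 2 * w0T

/-- Its second derivative, scaled. -/
def pm2T : E :=
  4 * fT ^ 2 * oT ^ 2 * w1T + 4 * lwT * fT * (oT ^ 2 * w1T + w2T)
    + 2 * gT * (2 * oT ^ 2 * w2T + w3T) + leT * w2T + 2 * (5 * eT - 8) * fT * oT ^ 2 * w1T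

/-- The combination in the slope, scaled. -/
def s1T : E := oT ^ 2 * pmT + 2 * pm1T

/-- The slope of the marginal coefficient, scaled. -/
def paT : E := s1T + 10 * fT * pmT - 40 * eT * fT * bT * oT ^ 15

/-- Its derivative, scaled. -/
def pa1T : E :=
  3 * oT ^ 2 * pm1T + 2 * pm2T + 5 * fT * s1T + 10 * fT * (oT ^ 2 * pmT + pm1T)
    + 60 * fT ^ 2 * pmT - 40 * eT * fT ^ 2 * bT * oT ^ 15

/-- The inequality, scaled. -/
def concT : E := 4 * fT * oT ^ 2 * paT - (1 + 3 * eT - 4 * fT) * pa1T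

lemma conc_check : E.check concT = true := by decide +kernel

variable {v : Fin 3 → ℝ} {σ ω x : ℝ}

namespace At

variable (h : At σ ω x v)
include h

lemma mx_eq : Tan.mx (1 - σ ^ 2) (gq σ) x =
    E.sem v pmT / (20 * (1 - σ ^ 2) * E.sem v mT * (1 - ω ^ 2) * ω ^ 5) := by
  have := h.e_pos.ne'
  have := h.f_pos.ne'
  have := h.hω.ne'
  have := h.mT_ne
  simp only [Tan.mx, h.yl_eq, h.w0_eq, h.w1_eq, pmT, leT, h.sem_e, h.sem_f, h.sem_g, h.ho, sem_add,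
    sem_sub, sem_mul, sem_pow, sem_lit, Nat.cast_ofNat]
  rw [h.hx]
  field_simp
  ring

lemma mx1_eq : Tan.mx1 (1 - σ ^ 2) (gq σ) x =
    E.sem v pm1T / (20 * E.sem v mT * (1 - ω ^ 2) ^ 2 * ω ^ 7) := by
  have := h.e_pos.ne'
  have := h.f_pos.ne'
  have := h.hω.ne'
  have := h.mT_ne
  simp only [Tan.mx1, h.yl_eq, h.w0_eq, h.w1_eq, h.w2_eq, pm1T, lwT, leT, h.sem_e, h.sem_f, h.sem_g,
    h.ho, sem_add, sem_sub, sem_mul, sem_pow, sem_lit, Nat.cast_ofNat]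
  rw [h.hx]
  field_simp
  ring

lemma mx2_eq : Tan.mx2 (1 - σ ^ 2) (gq σ) (gq4 σ) x =
    (1 - σ ^ 2) * E.sem v pm2T / (20 * E.sem v mT * (1 - ω ^ 2) ^ 3 * ω ^ 9) := by
  have := h.e_pos.ne'
  have := h.f_pos.ne'
  have := h.hω.ne'
  have := h.mT_ne
  simp only [Tan.mx2, h.yl_eq, h.w1_eq, h.w2_eq, h.w3_eq, pm2T, lwT, leT, h.sem_e, h.sem_f, h.sem_g,
    h.ho, sem_add, sem_sub, sem_mul, sem_pow, sem_lit, Nat.cast_ofNat]
  rw [h.hx]
  field_simp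
  ring

lemma conc_eq (c : ℝ) (hc : c = 4 * (1 - σ ^ 2) / (1 + 3 * (1 - σ ^ 2))) :
    c * Tan.ax (1 - σ ^ 2) (gq σ) x - Tan.ax1 (1 - σ ^ 2) (gq σ) (gq4 σ) x * (1 - c * x) =
      E.sem v concT /
        (20 * E.sem v mT * (1 + 3 * (1 - σ ^ 2)) * (1 - ω ^ 2) ^ 2 * ω ^ 19) := by
  have := h.e_pos.ne'
  have := h.f_pos.ne'
  have := h.hω.ne'
  have := h.mT_ne
  obtain ⟨g, hg⟩ : ∃ g, g = 1 + 3 * (1 - σ ^ 2) := ⟨_, rfl⟩
  have : g ≠ 0 := by linarith [h.e_pos]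
  simp only [Tan.ax, Tan.ax1, h.yl_eq, h.rate_eq, h.mx_eq, h.mx1_eq, h.mx2_eq, concT, paT, pa1T,
    s1T, h.sem_e, h.sem_f, h.ho, sem_add, sem_sub, sem_mul, sem_pow, sem_lit,
    Nat.cast_ofNat]
  rw [h.hx, hc, ← hg]
  field_simp
  rw [hg]
  ring

end At

lemma mT_pos {σ : ℝ} (h : σ ∈ Ioo (0 : ℝ) 1) {v : Fin 3 → ℝ} (hv : v 0 = σ) :
    0 < E.sem v mT := by
  have := mul_pos (pow_pos h.1 5) (dl_pos (Ioo_subset_Ico_self h))
  simp [mT, sT, sem_hor, E.sem, hv]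
  linarith

/-- A point of the square under each cosine. -/
lemma exists_at {σ x : ℝ} (h : σ ∈ Ioo (0 : ℝ) 1) (hx : x ∈ Ioo (0 : ℝ) 1) :
    ∃ ω v, At σ ω x v ∧ ∀ i, v i ∈ Icc (0 : ℝ) 1 := by
  have he : 0 < 1 - σ ^ 2 := sub_pos.2 (pow_lt_one₀ h.1.le h.2 two_ne_zero)
  obtain ⟨w, hw⟩ : ∃ w, w = √(Tan.yl (1 - σ ^ 2) x) := ⟨_, rfl⟩
  have hy : 0 < Tan.yl (1 - σ ^ 2) x :=
    Tan.yl_pos ⟨he, sub_lt_self 1 (pow_pos h.1 2)⟩ (Ioo_subset_Icc_self hx)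
  have hlo : σ < w := by
    rw [hw, lt_sqrt h.1.le, Tan.yl]
    linarith [mul_lt_mul_of_pos_left hx.2 he]
  have hhi : w < 1 := by
    rw [hw, sqrt_lt' one_pos, Tan.yl, one_pow]
    linarith [mul_pos he hx.1]
  have hs : 0 < 1 - σ := sub_pos.2 h.2
  refine ⟨w, ![σ, (w - σ) / (1 - σ), 0], ⟨h.1, h.2, h.1.trans hlo, hhi, rfl, ?_, ?_,
    (dl_pos (Ioo_subset_Ico_self h)).ne'⟩, fun i => ?_⟩
  · simp [oT, sT, E.sem]
    field_simp
    ring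
  · rw [hw, sq_sqrt hy.le, Tan.yl, eq_div_iff he.ne']
    ring
  · fin_cases i
    · exact ⟨h.1.le, h.2.le⟩
    · exact ⟨div_nonneg (sub_nonneg.2 hlo.le) hs.le, (div_le_one hs).2 (by linarith)⟩
    · simp

/-- The candidate's marginal coefficient has the concavity of the certificate. -/
theorem conc {σ : ℝ} (h : σ ∈ Ioo (0 : ℝ) 1) :
    MonotoneOn (fun t => -aSlope (1 - σ ^ 2) (Tan.wtOf (1 - σ ^ 2) (gq σ)) t *
      zc (concQ (1 - σ ^ 2)) t) (Ioc 0 1) := by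
  have he : 1 - σ ^ 2 ∈ Ioo (0 : ℝ) 1 :=
    ⟨sub_pos.2 (pow_lt_one₀ h.1.le h.2 two_ne_zero), sub_lt_self 1 (pow_pos h.1 2)⟩
  refine Tan.conc_of_deriv he (isDeriv h) (Q4 := gq4 σ) (fun x hx => hasDerivAt_Q3 h hx) fun x hx => ?_
  obtain ⟨ω, v, ha, hv⟩ := exists_at h hx
  refine le_of_le_of_eq ?_ (ha.conc_eq (concQ (1 - σ ^ 2)) rfl).symm
  have := E.sem_nonneg conc_check hv
  have := mT_pos h ha.hv
  have := ha.hω
  have := sq_nonneg (1 - ω ^ 2)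
  have : 0 < 1 + 3 * (1 - σ ^ 2) := by linarith [he.1]
  positivity

end Cand

end Vale.Agent.P219.CH.Relax.Six
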