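import Vale.Agent.P219.Relax.Six.RootGen
import Vale.Agent.P219.Relax.Six.ConcTan
import Vale.Agent.P219.Relax.Six.CandB.Fac

/-!
# P219, dimension six: the candidate

One explicit free function for every curvature bound. With `σ ^ 2 = 1 - e`, `ω ^ 2 = 1 - e x` and
`f = 1 - ω ^ 2` each quantity built from it is a polynomial in `σ` and `ω` over a monomial in
`M, f, ω`, where `M = 1600 σ ^ 5 (rv dL σ)`. The polynomials are kept as expression trees.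
-/

noncomputable section

open Set Real

namespace Vale.Agent.P219.CH.Relax.Six

namespace Cand

open Vale.Agent.P219.Poly (E)

instance : Add E := ⟨E.add⟩
instance : Neg E := ⟨E.neg⟩
instance : Sub E := ⟨fun p q => E.add p (E.neg q)⟩
instance : Mul E := ⟨E.mul⟩
instance : Pow E ℕ := ⟨E.pow⟩
instance (n : ℕ) : OfNat E n := ⟨E.k n⟩

variable (v : Fin 3 → ℝ) (p q : E) (n : ℕ)

@[simp] lemma sem_add : E.sem v (p + q) = E.sem v p + E.sem v q := rfl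
@[simp] lemma sem_neg : E.sem v (-p) = -E.sem v p := rfl
@[simp] lemma sem_sub : E.sem v (p - q) = E.sem v p - E.sem v q := (sub_eq_add_neg _ _).symm
@[simp] lemma sem_mul : E.sem v (p * q) = E.sem v p * E.sem v q := rfl
@[simp] lemma sem_pow : E.sem v (p ^ n) = E.sem v p ^ n := rfl
@[simp] lemma sem_lit : E.sem v (no_index (OfNat.ofNat n : E)) = (n : ℝ) :=
  show ((n : ℤ) : ℝ) = _ by simp

@[simp] lemma sem_one : E.sem v (1 : E) = 1 := show (((1 : ℕ) : ℤ) : ℝ) = 1 by simp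

/-- The value of a list of integer coefficients. -/
def rv : List ℤ → ℝ → ℝ
  | [], _ => 0
  | a :: l, x => a + x * rv l x

/-- The tree of a list of coefficients in `σ`. -/
abbrev hor : List ℤ → E := CandB.horner

lemma sem_hor : ∀ l : List ℤ, E.sem v (hor l) = rv l (v 0)
  | [] => by simp [CandB.horner, rv, E.sem]
  | [a] => by simp [CandB.horner, rv, E.sem]
  | a :: b :: l => by
    have := sem_hor (b :: l)
    simp only [hor] at this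
    simp [CandB.horner, rv, E.sem, this]

open CandB (dL c1L c2L bL)

/-- The tree of `σ`. -/
def sT : E := E.x 0

/-- The tree of `ω`: a share `v 1` of the way from `σ` to one. -/
def oT : E := sT + E.bar 0 * E.x 1

/-- The tree of `e`. -/
def eT : E := 1 - sT ^ 2

/-- The tree of `f = e x`. -/
def fT : E := 1 - oT ^ 2

/-- The tree of `g = (1 - x) e`. -/
def gT : E := oT ^ 2 - sT ^ 2

/-- The common denominator. -/
def mT : E := 1600 * sT ^ 5 * hor dL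

/-- The scaled coefficient of `ω⁻⁵`. -/
def cm5 : E := -(40 * sT ^ 6 * hor dL)

/-- The scaled coefficient of `ω⁻⁴`. -/
def cm4 : E := 144 * sT ^ 5 * hor dL

/-- The scaled coefficient of `ω⁻³`. -/
def cm3 : E := -(216 * sT ^ 4 * hor dL)

/-- The scaled coefficient of `ω⁻²`. -/
def cm2 : E := 100 * sT ^ 3 * hor c1L

/-- The scaled coefficient of `ω⁻¹`. -/
def cm1 : E := 100 * sT ^ 2 * hor c2L

/-- The scaled coefficient of `ω`. -/
def cp1 : E := (175 * sT ^ 2 - 54) * hor dL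

/-- The scaled coefficient of `ω ^ 3`. -/
def cp3 : E := 100 * hor bL

/-- The scaled derivative 0 of the free function. -/
def aT0 : E :=
  16 * cm5 + 16 * cm4 * oT + 16 * cm3 * oT ^ 2 + 16 * cm2 * oT ^ 3
    + 16 * cm1 * oT ^ 4 + 16 * cp1 * oT ^ 6 + 16 * cp3 * oT ^ 8

/-- The scaled derivative 1 of the free function. -/
def aT1 : E :=
  40 * cm5 + 32 * cm4 * oT + 24 * cm3 * oT ^ 2 + 16 * cm2 * oT ^ 3
    + 8 * cm1 * oT ^ 4 - 8 * cp1 * oT ^ 6 - 24 * cp3 * oT ^ 8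

/-- The scaled derivative 2 of the free function. -/
def aT2 : E :=
  140 * cm5 + 96 * cm4 * oT + 60 * cm3 * oT ^ 2 + 32 * cm2 * oT ^ 3
    + 12 * cm1 * oT ^ 4 - 4 * cp1 * oT ^ 6 + 12 * cp3 * oT ^ 8

/-- The scaled derivative 3 of the free function. -/
def aT3 : E :=
  630 * cm5 + 384 * cm4 * oT + 210 * cm3 * oT ^ 2 + 96 * cm2 * oT ^ 3
    + 30 * cm1 * oT ^ 4 - 6 * cp1 * oT ^ 6 + 6 * cp3 * oT ^ 8

/-- The scaled derivative 4 of the free function. -/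
def aT4 : E :=
  3465 * cm5 + 1920 * cm4 * oT + 945 * cm3 * oT ^ 2 + 384 * cm2 * oT ^ 3
    + 105 * cm1 * oT ^ 4 - 15 * cp1 * oT ^ 6 + 9 * cp3 * oT ^ 8

/-- The scaled volume constant. -/
def bT : E := -(12 * (cm5 + cm4 + cm3 + cm2 + cm1 + cp1 + cp3))

/-- The quadratic factor, times `e`. -/
def nqT : E := 5 * eT - (10 - 3 * eT) * fT + 2 * fT ^ 2

/-- The slope of the first factor. -/
def lwT : E := 2 * fT - (1 + eT)

/-- The slope of the quadratic factor. -/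
def l2T : E := 4 * fT - (10 - 3 * eT)

/-- The linear factor of the marginal, times `e`. -/
def leT : E := 3 * eT + (5 * eT - 8) * fT

/-- The scaled `x Q' - Q`. -/
def e1T : E := fT * aT1 - oT ^ 2 * aT0

/-- The numerator, scaled. -/
def t0 : E := 4 * eT * bT * oT ^ 13 + 2 * gT * e1T + nqT * aT0

/-- Its derivative, scaled. -/
def t1 : E :=
  2 * lwT * e1T + 2 * gT * fT * aT2 + l2T * aT0 * oT ^ 2 + nqT * aT1 - 16 * eT * bT * oT ^ 13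

/-- Its second derivative, scaled. -/
def t2 : E :=
  48 * eT * bT * oT ^ 13 + 4 * oT ^ 2 * e1T + 4 * lwT * fT * aT2
    + 2 * gT * (oT ^ 2 * aT2 + fT * aT3) + 4 * oT ^ 4 * aT0 + 2 * l2T * oT ^ 2 * aT1 + nqT * aT2

/-- Its third derivative, scaled. -/
def t3 : E :=
  12 * fT * oT ^ 2 * aT2 + 6 * lwT * (oT ^ 2 * aT2 + fT * aT3)
    + 2 * gT * (2 * oT ^ 2 * aT3 + fT * aT4) + 12 * oT ^ 4 * aT1 + 3 * l2T * oT ^ 2 * aT2
    + nqT * aT3 - 96 * eT * bT * oT ^ 13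

/-- The weight times the contact, scaled. -/
def w0T : E := 10 * mT * fT * (1 + fT) * oT ^ 3 - t0

/-- Its derivative, scaled. -/
def w1T : E := 20 * mT * fT ^ 2 * oT ^ 3 - fT * t1 + oT ^ 2 * t0

/-- Its second derivative, scaled. -/
def w2T : E := 40 * mT * fT ^ 3 * oT ^ 3 - fT ^ 2 * t2 + 2 * fT * oT ^ 2 * t1 - 2 * oT ^ 4 * t0

/-- Its third derivative, scaled. -/
def w3T : E :=
  120 * mT * fT ^ 4 * oT ^ 3 - fT ^ 3 * t3 + 3 * fT ^ 2 * oT ^ 2 * t2 - 6 * fT * oT ^ 4 * t1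
    + 6 * oT ^ 6 * t0

/-! ## The candidate and its scaled forms -/

/-- The coefficients and exponents. -/
def lst (σ : ℝ) : List (ℝ × ℤ) :=
  [(-(2 / 5) * σ, -5), (36 / 25, -4), (-(54 / 25) / σ, -3), (rv c1L σ / (σ ^ 2 * rv dL σ), -2),
    (rv c2L σ / (σ ^ 3 * rv dL σ), -1), ((-(27 / 50) + 7 / 4 * σ ^ 2) / σ ^ 5, 1),
    (rv bL σ / (σ ^ 5 * rv dL σ), 3)]

/-- The free function. -/
def gq (σ : ℝ) : Gen3 := RootGen.gen (1 - σ ^ 2) (lst σ)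

/-- The fourth derivative. -/
def gq4 (σ x : ℝ) : ℝ :=
  RootGen.val (RootGen.der (1 - σ ^ 2) (RootGen.der (1 - σ ^ 2) (RootGen.der (1 - σ ^ 2)
    (RootGen.der (1 - σ ^ 2) (lst σ))))) √(Tan.yl (1 - σ ^ 2) x)

lemma dl_pos {σ : ℝ} (h : σ ∈ Ico (0 : ℝ) 1) : 0 < rv dL σ := by
  have h0 := E.sem_nonneg (p := hor dL - 1000 * E.bar 0 ^ 20) (by decide +kernel)
    (v := fun _ => σ) fun _ => ⟨h.1, h.2.le⟩
  have h1 : 0 < (1 - σ) ^ 20 := pow_pos (sub_pos.2 h.2) 20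
  simp [sem_hor, E.sem] at h0
  linarith

lemma isDeriv {σ : ℝ} (h : σ ∈ Ioo (0 : ℝ) 1) : (gq σ).IsDeriv :=
  RootGen.isDeriv ⟨sub_pos.2 (pow_lt_one₀ h.1.le h.2 two_ne_zero),
    sub_lt_self 1 (pow_pos h.1 2)⟩ _

lemma hasDerivAt_Q3 {σ : ℝ} (h : σ ∈ Ioo (0 : ℝ) 1) {x : ℝ} (hx : x ∈ Icc (0 : ℝ) 1) :
    HasDerivAt (gq σ).Q3 (gq4 σ x) x :=
  RootGen.hasDerivAt_val (Tan.yl_pos ⟨sub_pos.2 (pow_lt_one₀ h.1.le h.2 two_ne_zero),
    sub_lt_self 1 (pow_pos h.1 2)⟩ hx) _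

/-- A point of the rectangle: `σ`, `ω` and the share `u`. -/
structure At (σ ω x : ℝ) (v : Fin 3 → ℝ) : Prop where
  hσ : 0 < σ
  hσ1 : σ < 1
  hω : 0 < ω
  hf : ω < 1
  hv : v 0 = σ
  ho : E.sem v oT = ω
  hx : x = (1 - ω ^ 2) / (1 - σ ^ 2)
  hdl : rv dL σ ≠ 0

variable {v} {σ ω x : ℝ}

namespace At

variable (h : At σ ω x v)
include h

lemma e_pos : 0 < 1 - σ ^ 2 := sub_pos.2 (pow_lt_one₀ h.hσ.le h.hσ1 two_ne_zero)

lemma f_pos : 0 < 1 - ω ^ 2 := sub_pos.2 (pow_lt_one₀ h.hω.le h.hf two_ne_zero)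

lemma sem_s : E.sem v sT = σ := h.hv

lemma yl_eq : Tan.yl (1 - σ ^ 2) x = ω ^ 2 := by
  rw [Tan.yl, h.hx, mul_div_cancel₀ _ h.e_pos.ne']
  ring

lemma sqrt_yl : √(Tan.yl (1 - σ ^ 2) x) = ω := by rw [h.yl_eq, sqrt_sq h.hω.le]

lemma Q_eq : (gq σ).Q x = E.sem v aT0 / (E.sem v mT * ω ^ 5) := by
  have := h.hσ.ne'
  have := h.hω.ne'
  have := h.hdl
  simp only [gq, RootGen.gen, h.sqrt_yl]
  simp [RootGen.val, lst, aT0, mT, cm5, cm4, cm3, cm2, cm1, cp1, cp3, sem_hor,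
    h.hv, h.sem_s, h.ho, zpow_neg]
  norm_num [zpow_neg, zpow_sub₀ h.hω.ne']
  field_simp
  ring

lemma Q1_eq : (gq σ).Q1 x = (1 - σ ^ 2) * E.sem v aT1 / (E.sem v mT * ω ^ 7) := by
  have := h.hσ.ne'
  have := h.hω.ne'
  have := h.hdl
  simp only [gq, RootGen.gen, h.sqrt_yl]
  simp [RootGen.val, RootGen.der, lst, aT1, mT, cm5, cm4, cm3, cm2, cm1, cp1, cp3, sem_hor,
    h.hv, h.sem_s, h.ho, zpow_neg]
  norm_num [zpow_neg, zpow_sub₀ h.hω.ne']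
  field_simp
  ring

lemma Q2_eq : (gq σ).Q2 x = (1 - σ ^ 2) ^ 2 * E.sem v aT2 / (E.sem v mT * ω ^ 9) := by
  have := h.hσ.ne'
  have := h.hω.ne'
  have := h.hdl
  simp only [gq, RootGen.gen, h.sqrt_yl]
  simp [RootGen.val, RootGen.der, lst, aT2, mT, cm5, cm4, cm3, cm2, cm1, cp1, cp3, sem_hor,
    h.hv, h.sem_s, h.ho, zpow_neg]
  norm_num [zpow_neg, zpow_sub₀ h.hω.ne']
  field_simp
  ring

lemma Q3_eq : (gq σ).Q3 x = (1 - σ ^ 2) ^ 3 * E.sem v aT3 / (E.sem v mT * ω ^ 11) := by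
  have := h.hσ.ne'
  have := h.hω.ne'
  have := h.hdl
  simp only [gq, RootGen.gen, h.sqrt_yl]
  simp [RootGen.val, RootGen.der, lst, aT3, mT, cm5, cm4, cm3, cm2, cm1, cp1, cp3, sem_hor,
    h.hv, h.sem_s, h.ho, zpow_neg]
  norm_num [zpow_neg, zpow_sub₀ h.hω.ne']
  field_simp
  ring

lemma Q4_eq : gq4 σ x = (1 - σ ^ 2) ^ 4 * E.sem v aT4 / (E.sem v mT * ω ^ 13) := by
  have := h.hσ.ne'
  have := h.hω.ne'
  have := h.hdl
  simp only [gq4, h.sqrt_yl]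
  simp [RootGen.val, RootGen.der, lst, aT4, mT, cm5, cm4, cm3, cm2, cm1, cp1, cp3, sem_hor,
    h.hv, h.sem_s, h.ho, zpow_neg]
  norm_num [zpow_neg, zpow_sub₀ h.hω.ne']
  field_simp
  ring

lemma sem_e : E.sem v eT = 1 - σ ^ 2 := by simp [eT, h.sem_s]

lemma sem_f : E.sem v fT = 1 - ω ^ 2 := by simp [fT, h.ho]

lemma sem_g : E.sem v gT = ω ^ 2 - σ ^ 2 := by simp [gT, h.sem_s, h.ho]

lemma mT_ne : E.sem v mT ≠ 0 := by
  simp [mT, sem_hor, h.hv, h.sem_s, h.hσ.ne', h.hdl]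

lemma rate_eq : Tan.rate (gq σ) = E.sem v bT / E.sem v mT := by
  have := h.hσ.ne'
  have := h.hdl
  simp [gq, RootGen.gen, Tan.rate, Tan.yl, RootGen.val, lst, bT, mT, cm5, cm4, cm3, cm2, cm1, cp1,
    cp3, sem_hor, h.hv, h.sem_s]
  field_simp
  ring

lemma n0_eq : Tan.n0 (1 - σ ^ 2) (gq σ) x = E.sem v t0 / (2 * (1 - σ ^ 2) * E.sem v mT * ω ^ 5) := by
  have := h.e_pos.ne'
  have := h.f_pos.ne'
  have := h.hω.ne'
  have := h.mT_ne
  simp only [Tan.n0, h.yl_eq, h.rate_eq, h.Q_eq, h.Q1_eq,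
    Tan.nq, t0, e1T, nqT, h.sem_e, h.sem_f, h.sem_g, h.ho, sem_add, sem_sub, sem_mul,
    sem_pow, sem_lit, Nat.cast_ofNat]
  rw [h.hx]
  field_simp
  ring

lemma n1_eq : Tan.n1 (1 - σ ^ 2) (gq σ) x = E.sem v t1 / (2 * E.sem v mT * ω ^ 7) := by
  have := h.e_pos.ne'
  have := h.f_pos.ne'
  have := h.hω.ne'
  have := h.mT_ne
  simp only [Tan.n1, h.yl_eq, h.rate_eq, h.Q_eq, h.Q1_eq, h.Q2_eq,
    Tan.nq, t1, e1T, nqT, lwT, l2T, h.sem_e, h.sem_f, h.sem_g, h.ho, sem_add, sem_sub, sem_mul,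
    sem_pow, sem_lit, Nat.cast_ofNat]
  rw [h.hx]
  field_simp
  ring

lemma n2_eq : Tan.n2 (1 - σ ^ 2) (gq σ) x = (1 - σ ^ 2) * E.sem v t2 / (2 * E.sem v mT * ω ^ 9) := by
  have := h.e_pos.ne'
  have := h.f_pos.ne'
  have := h.hω.ne'
  have := h.mT_ne
  simp only [Tan.n2, h.yl_eq, h.rate_eq, h.Q_eq, h.Q1_eq, h.Q2_eq, h.Q3_eq,
    Tan.nq, t2, e1T, nqT, lwT, l2T, h.sem_e, h.sem_f, h.sem_g, h.ho, sem_add, sem_sub, sem_mul,
    sem_pow, sem_lit, Nat.cast_ofNat]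
  rw [h.hx]
  field_simp
  ring

lemma n3_eq : Tan.n3 (1 - σ ^ 2) (gq σ) (gq4 σ) x = (1 - σ ^ 2) ^ 2 * E.sem v t3 / (2 * E.sem v mT * ω ^ 11) := by
  have := h.e_pos.ne'
  have := h.f_pos.ne'
  have := h.hω.ne'
  have := h.mT_ne
  simp only [Tan.n3, h.yl_eq, h.rate_eq, h.Q1_eq, h.Q2_eq, h.Q3_eq, h.Q4_eq,
    Tan.nq, t3, nqT, lwT, l2T, h.sem_e, h.sem_f, h.sem_g, h.ho, sem_add, sem_sub, sem_mul,
    sem_pow, sem_lit, Nat.cast_ofNat]
  rw [h.hx]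
  field_simp
  ring

lemma w0_eq : Tan.wx (1 - σ ^ 2) (gq σ) x = E.sem v w0T / (10 * E.sem v mT * (1 - ω ^ 2) * ω ^ 5) := by
  have := h.e_pos.ne'
  have := h.f_pos.ne'
  have := h.hω.ne'
  have := h.mT_ne
  simp only [Tan.wx, h.n0_eq, h.yl_eq,
    w0T, h.sem_f, h.ho, sem_add, sem_sub, sem_mul,
    sem_pow, sem_lit, Nat.cast_ofNat]
  rw [h.hx]
  field_simp
  ring

lemma w1_eq : Tan.wx1 (1 - σ ^ 2) (gq σ) x = (1 - σ ^ 2) * E.sem v w1T / (10 * E.sem v mT * (1 - ω ^ 2) ^ 2 * ω ^ 7) := by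
  have := h.e_pos.ne'
  have := h.f_pos.ne'
  have := h.hω.ne'
  have := h.mT_ne
  simp only [Tan.wx1, h.n0_eq, h.n1_eq, h.yl_eq,
    w1T, h.sem_f, h.ho, sem_add, sem_sub, sem_mul,
    sem_pow, sem_lit, Nat.cast_ofNat]
  rw [h.hx]
  field_simp
  ring

lemma w2_eq : Tan.wx2 (1 - σ ^ 2) (gq σ) x = (1 - σ ^ 2) ^ 2 * E.sem v w2T / (10 * E.sem v mT * (1 - ω ^ 2) ^ 3 * ω ^ 9) := by
  have := h.e_pos.ne'
  have := h.f_pos.ne'
  have := h.hω.ne'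
  have := h.mT_ne
  simp only [Tan.wx2, h.n0_eq, h.n1_eq, h.n2_eq, h.yl_eq,
    w2T, h.sem_f, h.ho, sem_add, sem_sub, sem_mul,
    sem_pow, sem_lit, Nat.cast_ofNat]
  rw [h.hx]
  field_simp
  ring

lemma w3_eq : Tan.wx3 (1 - σ ^ 2) (gq σ) (gq4 σ) x = (1 - σ ^ 2) ^ 3 * E.sem v w3T / (10 * E.sem v mT * (1 - ω ^ 2) ^ 4 * ω ^ 11) := by
  have := h.e_pos.ne'
  have := h.f_pos.ne'
  have := h.hω.ne'
  have := h.mT_ne
  simp only [Tan.wx3, h.n0_eq, h.n1_eq, h.n2_eq, h.n3_eq, h.yl_eq,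
    w3T, h.sem_f, h.ho, sem_add, sem_sub, sem_mul,
    sem_pow, sem_lit, Nat.cast_ofNat]
  rw [h.hx]
  field_simp
  ring

end At

end Cand

end Vale.Agent.P219.CH.Relax.Six
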