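import Vale.Agent.P219.Relax.Six.Cand.Def
import Vale.Agent.P219.Relax.Poly.Chart
import Vale.Agent.P219.Relax.Poly.FastCheck

/-!
# P219, dimension six: the candidate, sign of the slope in the cosine

The slope is a polynomial in `σ` and the share `u` over positive factors. In the two charts of the
corner `σ = u = 0` it stays below a negative monomial.
-/

noncomputable section

open Set Real

namespace Vale.Agent.P219.CH.Relax.Six

namespace Cand

open Vale.Agent.P219.Poly (E)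

/-- The negated slope, scaled. -/
def negT : E := -(10 * fT * oT ^ 2 * aT0 + 2 * w1T + (3 + 5 * fT) * w0T)

/-- `σ = a`, `u = a b`. -/
def chLo : E.Map := ⟨E.x 0, E.x 0 * E.x 1, 1, 1⟩

/-- `σ = a b`, `u = b`. -/
def chHi : E.Map := ⟨E.x 0 * E.x 1, E.x 1, 1, 1⟩

/-- The margin below the diagonal. -/
def loT : E :=
  chLo.app negT - E.x 0 ^ 8 * (1 - E.x 0 * E.x 1) ^ 2 * E.bar 0 ^ 30 * E.bar 1 ^ 10

/-- The margin above the diagonal. -/
def hiT : E := chHi.app negT - E.x 0 ^ 36 * E.x 1 ^ 8 * E.bar 1 ^ 15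

lemma lo_check : E.check2 loT = true := by decide +kernel

lemma hi_check : E.check2 hiT = true := by decide +kernel

lemma sem_app {c : E.Map} (h₀ : c.m₀ = 1) (h₁ : c.m₁ = 1) (v : Fin 3 → ℝ) (p : E) :
    E.sem v (c.app p) = E.sem ![E.sem v c.A₀, E.sem v c.A₁, 0] p := by
  rw [E.Map.app, E.sem_subst, E.sem_eq_hom]
  congr 1 <;> (funext i; fin_cases i <;> simp [h₀, h₁, E.sem])

variable {σ u : ℝ}

lemma negT_pos (hσ : σ ∈ Ioo (0 : ℝ) 1) (hu : u ∈ Ico (0 : ℝ) 1) :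
    0 < E.sem ![σ, u, 0] negT := by
  obtain ⟨hs0, hs1⟩ := hσ
  obtain ⟨hu0, hu1⟩ := hu
  rcases lt_or_ge u σ with h | h
  · have h0 := E.sem_nonneg2 lo_check (v := ![σ, u / σ, 0]) fun i => by
      fin_cases i <;> simp [hs0.le, hs1.le, div_nonneg hu0 hs0.le, div_le_one hs0, h.le]
    simp only [loT, sem_sub, sem_app (c := chLo) rfl rfl] at h0
    simp [chLo, E.sem, mul_div_cancel₀ u hs0.ne'] at h0
    have : 0 < σ ^ 8 * (1 - u) ^ 2 * (1 - σ) ^ 30 * (1 - u / σ) ^ 10 := by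
      have := sub_pos.2 hu1
      have := sub_pos.2 hs1
      have := sub_pos.2 ((div_lt_one hs0).2 h)
      positivity
    linarith
  · have hu' : 0 < u := hs0.trans_le h
    have h0 := E.sem_nonneg2 hi_check (v := ![σ / u, u, 0]) fun i => by
      fin_cases i <;> simp [hu0, hu1.le, div_nonneg hs0.le hu0, div_le_one hu', h]
    simp only [hiT, sem_sub, sem_app (c := chHi) rfl rfl] at h0
    simp [chHi, E.sem, div_mul_cancel₀ σ hu'.ne'] at h0
    have : 0 < (σ / u) ^ 36 * u ^ 8 * (1 - u) ^ 15 := by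
      have := sub_pos.2 hu1
      positivity
    linarith

namespace At

variable {v : Fin 3 → ℝ} {ω x : ℝ} (h : At σ ω x v)
include h

lemma px_eq : Tan.px (1 - σ ^ 2) (gq σ) x = -((1 - σ ^ 2) * E.sem v negT /
    (10 * E.sem v mT * (1 - ω ^ 2) ^ 2 * ω ^ 7)) := by
  have := h.e_pos.ne'
  have := h.f_pos.ne'
  have := h.hω.ne'
  have := h.mT_ne
  simp only [Tan.px, h.yl_eq, h.Q_eq, h.w0_eq, h.w1_eq, negT, h.sem_f, h.ho, sem_neg, sem_add,
    sem_mul, sem_pow, sem_lit, Nat.cast_ofNat]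
  rw [h.hx]
  field_simp

end At

/-- The slope in the cosine of the candidate is negative. -/
theorem slope_neg (hσ : σ ∈ Ioo (0 : ℝ) 1) {t : ℝ} (ht : t ∈ Ioc (0 : ℝ) 1) :
    (Tan.wtOf (1 - σ ^ 2) (gq σ)).P t < 0 := by
  have he : 0 < 1 - σ ^ 2 := sub_pos.2 (pow_lt_one₀ hσ.1.le hσ.2 two_ne_zero)
  have hx := Tan.sq_mem ht
  obtain ⟨w, hw⟩ : ∃ w, w = √(Tan.yl (1 - σ ^ 2) (t ^ 2)) := ⟨_, rfl⟩
  have hy : 0 < Tan.yl (1 - σ ^ 2) (t ^ 2) :=
    Tan.yl_pos ⟨he, sub_lt_self 1 (pow_pos hσ.1 2)⟩ (Ioc_subset_Icc_self hx)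
  have hlo : σ ≤ w := by
    rw [hw, le_sqrt hσ.1.le hy.le, Tan.yl]
    linarith [mul_le_mul_of_nonneg_left hx.2 he.le]
  have hhi : w < 1 := by
    rw [hw, sqrt_lt' one_pos, Tan.yl, one_pow]
    linarith [mul_pos he hx.1]
  have hs : 0 < 1 - σ := sub_pos.2 hσ.2
  have hu : (w - σ) / (1 - σ) ∈ Ico (0 : ℝ) 1 :=
    ⟨div_nonneg (sub_nonneg.2 hlo) hs.le, (div_lt_one hs).2 (by linarith)⟩
  have ha : At σ w (t ^ 2) ![σ, (w - σ) / (1 - σ), 0] := by
    refine ⟨hσ.1, hσ.2, hσ.1.trans_le hlo, hhi, rfl, ?_, ?_,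
      (dl_pos (Ioo_subset_Ico_self hσ)).ne'⟩
    · simp [oT, sT, E.sem]
      field_simp
      ring
    · rw [hw, sq_sqrt hy.le, Tan.yl, eq_div_iff he.ne']
      ring
  show Tan.px _ _ (t ^ 2) < 0
  rw [ha.px_eq, neg_lt_zero]
  have := negT_pos hσ hu
  have := ha.f_pos
  have := ha.hω
  have : 0 < E.sem ![σ, (w - σ) / (1 - σ), 0] mT := by
    have := mul_pos (pow_pos hσ.1 5) (dl_pos (Ioo_subset_Ico_self hσ))
    simp [mT, sT, sem_hor, E.sem]
    linarith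
  positivity

end Cand

end Vale.Agent.P219.CH.Relax.Six
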