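import Vale.Agent.P219.Relax.Six.Cand.Box
import Vale.Agent.P219.Relax.Six.Cand.Conc
import Vale.Agent.P219.Relax.Six.Cand.Slope

/-!
# P219, dimension six: the candidate solves everything but the signs inside

What is left of a solution is the facts at each contact.
-/

noncomputable section

open Set

namespace Vale.Agent.P219.CH.Relax.Six

namespace Cand

/-- The candidate is a solution once the facts hold at each contact. -/
theorem solFacts_of {σ : ℝ} (h : σ ∈ Ioo (0 : ℝ) 1)
    (hin : ∀ t ∈ Ioc (0 : ℝ) 1,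
      InPt (concQ (1 - σ ^ 2)) (ptIn (1 - σ ^ 2) (Tan.wtOf (1 - σ ^ 2) (gq σ)) t) t) :
    SolFacts (1 - σ ^ 2) (Tan.rate (gq σ)) (Tan.wtOf (1 - σ ^ 2) (gq σ)) :=
  Tan.solFacts (e_mem h) (isDeriv h) (rate_nonneg h) (slope_end h) (slope_end' h)
    (fun _ ht => slope_neg h ht) hin
    (conc h) (outHyp h)

end Cand

end Vale.Agent.P219.CH.Relax.Six
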